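import Crest.Agent.X262.Mono15.Val
import Crest.Agent.X277.BD.Map

/-!
# Row 262, SURF, MONO (helper15), part 5: values of the b-divisors of minors

* `int_of_sec` : sections of a pull-back are integral over the valuation rings of the base;
* `val_det`, `val_sub'` : the values of the b-divisors of minors and of differences;
* `Mon.deriv_eq'` : the derivative of the minimal polynomial, for a finite set of embeddings.
-/

set_option autoImplicit false

open Polynomial

namespace Crest.Agent.X262.Mono15

open Crest.Agent.X277 Crest.Agent.X277.BD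

theorem Mon.deriv_eq' {E F Ω : Type*} [Field E] [Field F] [Field Ω] [Algebra E F]
    [FiniteDimensional E F] {V : ValuationSubring E} {u : F} {q : E →+* Ω} (hu : Mon V u)
    {κ : Type*} [DecidableEq κ] {T : Finset κ} {p : κ → F →+* Ω}
    (hp : ∀ i e, p i (algebraMap E F e) = q e) (hi : Set.InjOn p T)
    (hc : Module.finrank E F ≤ T.card) {i : κ} (hT : i ∈ T) :
    p i (aeval u (derivative (minpoly V u))) = ∏ j ∈ T.erase i, (p i u - p j u) := by
  have hm := (minpoly.monic hu.int).map (q.comp V.subtype)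
  have h2 : (minpoly V u).map (q.comp V.subtype) = Lagrange.nodal T fun j => p j u := by
    refine eq_of_monic_of_dvd_of_natDegree_le Lagrange.nodal_monic hm ?_ ?_
    · refine Finset.prod_dvd_of_coprime (fun j hj l hl h => isCoprime_X_sub_C_of_isUnit_sub
        (sub_ne_zero.2 fun h1 => h (hi hj hl (hu.eq_of_eq (hp j) (hp l) h1))).isUnit) fun j _ => ?_
      rw [dvd_iff_isRoot, IsRoot, ← map_aeval' (hp j), minpoly.aeval, map_zero]
    · rw [Lagrange.natDegree_nodal]
      exact natDegree_map_le.trans (hu.natDegree_le.trans hc)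
  rw [map_aeval' (hp i), ← derivative_map, h2]
  exact (Lagrange.eval_nodal_derivative_eval_node_eq (v := fun j => p j u) hT).trans
    Lagrange.eval_nodal

theorem isIntegral_of_val {E F : Type*} [Field E] [Field F] [Algebra E F]
    {V : ValuationSubring E} {x : F}
    (h : ∀ O : ValuationSubring F, (∀ c ∈ V, algebraMap E F c ∈ O) → x ∈ O) : IsIntegral V x := by
  let A : Subalgebra V F := ⊥
  have h1 := iInf_valuationSubring_superset (K := F) (s := (A : Set F))
  have h2 : x ∈ (integralClosure (Subring.closure (A : Set F)) F).toSubring := by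
    rw [← h1]
    simp only [Subring.mem_iInf]
    exact fun O => h O.1 fun c hc => O.2 (A.algebraMap_mem ⟨c, hc⟩)
  have h3 : Subring.closure (A : Set F) = A.toSubring := Subring.closure_eq A.toSubring
  rw [h3] at h2
  have h4 : IsIntegral A x := h2
  have h5 : Algebra.IsIntegral V A := ⟨fun a => by
    obtain ⟨c, hc⟩ := Algebra.mem_bot.1 a.2
    rw [show a = algebraMap V A c from Subtype.ext hc.symm]
    exact isIntegral_algebraMap⟩
  exact isIntegral_trans x h4

variable {k E F Ω : Type*} [Field k] [Field E] [Field F] [Field Ω] [Algebra k E] [Algebra k F]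
  [Algebra k Ω] [Algebra E F] [IsScalarTower k E F]

theorem int_of_sec {a : BD k E} {V : RZ k E} {g : E} (hg : V.v g = a.val V) {s : F}
    (hs : s ∈ (pb (IsScalarTower.toAlgHom k E F) a).Sec) :
    IsIntegral V.1 (s / algebraMap E F g) := by
  refine isIntegral_of_val fun O hO => ?_
  let W : RZ k F := ⟨O, fun c => by
    rw [IsScalarTower.algebraMap_apply k E F]
    exact hO _ (V.2 c)⟩
  refine (RZ.le_iff (V := W) ((_root_.map_ne_zero _).2 (ne_of_val hg))).1 ((hs W).trans_eq ?_)
  exact val_mp (val_of_le (W := cm _ (alg_ov (IsScalarTower.toAlgHom k E F)) W) hO hg)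

variable {V : ValuationSubring E} {u : F} {q : E →+* Ω} (hu : Mon V u) {W : RZ k Ω}
  (hw : ∀ c : V, W.v (q c) ≤ 1) {g : E} (hg : g ≠ 0) {ι : Type*} [Fintype ι] {s : ι → F}
  (h1 : ∀ b, IsIntegral V (s b / algebraMap E F g))
  (h2 : ∀ a : F, IsIntegral V a → a * algebraMap E F g ∈ Submodule.span V (Set.range s))

omit [Algebra k E] [Algebra k F] [IsScalarTower k E F]

include hu hw hg h1 h2

omit [Fintype ι] hu hw h1 in
theorem nonempty_of_span : Nonempty ι := by
  by_contra h
  have h3 := h2 1 isIntegral_one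
  rw [not_nonempty_iff] at h
  rw [Set.range_eq_empty, Submodule.span_empty, Submodule.mem_bot, one_mul] at h3
  exact (_root_.map_ne_zero _).2 hg h3

/-- the b-divisor of the minors is the Vandermonde determinant -/
theorem val_det {r : ℕ} {p : Fin r → F →+* Ω} (hp : ∀ a e, p a (algebraMap E F e) = q e)
    (hi : Function.Injective p) :
    (mxf k fun c : Fin r → ι => (Matrix.of fun a b => p a (s (c b))).det).val W =
      W.v (q g) ^ r * W.v (Matrix.vandermonde fun a => p a u).det := by
  have := nonempty_of_span hg h2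
  obtain ⟨c, hc⟩ := hu.exists_det hw hp h2
  have h3 := fun c : Fin r → ι => hu.det_le hw hp hg fun b => h1 (c b)
  have h4 : 0 < W.v (q g) ^ r * W.v (Matrix.vandermonde fun a => p a u).det :=
    mul_pos (pow_pos (RZ.pos ((_root_.map_ne_zero _).2 hg)) _)
      (RZ.pos (Matrix.det_vandermonde_ne_zero_iff.2 fun a b h =>
        hi (hu.eq_of_eq (hp a) (hp b) h)))
  rw [val_mxf (i := c) (RZ.ne_zero_iff.1 (h4.trans_le hc).ne') fun c' => (h3 c').trans hc]
  exact le_antisymm (h3 c) hc

/-- the b-divisor of the differences -/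
theorem val_sub' {p₁ p₂ : F →+* Ω} (h₁ : ∀ e, p₁ (algebraMap E F e) = q e)
    (h₂ : ∀ e, p₂ (algebraMap E F e) = q e) (hne : p₁ ≠ p₂) :
    (mxf k fun b => p₁ (s b) - p₂ (s b)).val W = W.v (q g) * W.v (p₁ u - p₂ u) := by
  have := nonempty_of_span hg h2
  obtain ⟨c, hc⟩ := hu.exists_sub hw h₁ h₂ h2
  have h3 := fun b => hu.sub_le hw h₁ h₂ hg (h1 b)
  have h4 : 0 < W.v (q g) * W.v (p₁ u - p₂ u) :=
    mul_pos (RZ.pos ((_root_.map_ne_zero _).2 hg))
      (RZ.pos (sub_ne_zero.2 fun h => hne (hu.eq_of_eq h₁ h₂ h)))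
  rw [val_mxf (i := c) (RZ.ne_zero_iff.1 (h4.trans_le hc).ne') fun c' => (h3 c').trans hc]
  exact le_antisymm (h3 c) hc

end Crest.Agent.X262.Mono15
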