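import Crest.Agent.X262.Mono15.Dif
import Crest.Agent.X262.Mono15.Flag
import Crest.Agent.X262.Surf.Defs
import Crest.Agent.X262.Sark27.Term
import Crest.Agent.X262.Hor83.Main
import Crest.Agent.X277.Lef.BaseCh

/-!
# Row 262, SURF, MONO (helper15), part 6: `MonoStmt` and `CmpStmt`

* `cmpStmt`, `monoStmt`;
* `mono_eq` : the second clause of `MonoStmt` is an equality.
-/

set_option autoImplicit false

open Polynomial Module Finset
open scoped KaehlerDifferential

noncomputable section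

namespace Crest.Agent.X262.Mono15

open Crest.Agent.X277 Crest.Agent.X277.Lef Crest.Agent.X277.BD Crest.Agent.X277.BD.Br
open Crest.Agent.X262.Surf
open Crest.Agent.X277.Pst (Prm mem_of_loc)

theorem cmpStmt : CmpStmt := fun E F _ _ _ _ _ _ _ bE => by
  have : CharZero E := charZero_of_injective_algebraMap (algebraMap ℂ E).injective
  have : Algebra.FormallyEtale E F := Algebra.FormallyEtale.of_isSeparable E F
  have hb := KaehlerDifferential.isBaseChange_of_formallyEtale ℂ E F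
  exact ⟨hb.basis bE, jac_algebraMap bE _ (hb.basis_apply bE)⟩

variable {E F Ω : Type} [Field E] [Field F] [Field Ω] [Algebra ℂ E] [Algebra ℂ F]
  [Algebra ℂ Ω] [Algebra E F] [IsScalarTower ℂ E F] [Algebra E Ω] [IsScalarTower ℂ E Ω]
  {B : PModel ℂ E} {m0 n : ℕ} {s : Fin n → F} {W : RZ ℂ Ω} {u : F}

theorem dm_two (bE : B2 E) : Gj.dm ℂ E = 2 := by
  rw [Gj.dm, finrank_eq_card_basis bE, Fintype.card_fin]

section Loc

variable (hG : Gen B m0 s) (hW : Hor B (tw E Ω) W) (hu : Mon (rsV (tw E Ω) W).1 u)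

include hG hW

theorem gen_span (a : F) (ha : IsIntegral (rsV (tw E Ω) W).1 a) :
    a * algebraMap E F ((m0 • oP B).gen (rsV (tw E Ω) W)) ∈
      Submodule.span (rsV (tw E Ω) W).1 (Set.range s) := by
  obtain ⟨τ, h1, h2⟩ := hG.prm _ hW _ (v_gen _ _) a ha
  rw [mul_comm, ← Algebra.smul_def, h2]
  exact Submodule.sum_mem _ fun j _ =>
    Submodule.smul_mem _ (⟨τ j, h1 j⟩ : (rsV (tw E Ω) W).1) (Submodule.subset_span ⟨j, rfl⟩)

omit hW in
theorem gen_int (V : RZ ℂ E) (j : Fin n) :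
    IsIntegral V.1 (s j / algebraMap E F ((m0 • oP B).gen V)) :=
  int_of_sec (v_gen _ _) (by rw [map_nsmul]; exact hG.mem j)

omit hG hW in
theorem val_H : (m0 • pb (tw E Ω) (oP B)).val W =
    W.v (algebraMap E Ω ((m0 • oP B).gen (rsV (tw E Ω) W))) := by
  rw [← map_nsmul]
  exact val_mp_gen _ _

include hu

theorem val_xx {p p' : F →ₐ[E] Ω} (h : p ≠ p') : (xx B m0 s p p').val W = (W.v (p u - p' u))⁻¹ := by
  have h1 := val_sub' (W := W) (q := algebraMap E Ω) hu (fun c => RZ.le_one_iff.2 c.2)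
    (gen_ne _ _) (gen_int hG _) (gen_span hG hW) (p₁ := p) (p₂ := p') p.commutes p'.commutes
    fun h2 => h (AlgHom.coe_ringHom_injective h2)
  have h2 := RZ.ne_zero_iff (V := W).2 ((_root_.map_ne_zero (algebraMap E Ω)).2
    (gen_ne (m0 • oP B) (rsV (tw E Ω) W)))
  rw [xx, val_sub, val_H]
  exact (congrArg _ h1).trans (div_mul_cancel_left₀ h2 _)

theorem val_Dm {p : ℕ → F →ₐ[E] Ω} {r : ℕ} (hp : Set.InjOn p (Set.Iio r)) :
    (Dm (cj s p) r).val W = (m0 • pb (tw E Ω) (oP B)).val W ^ r *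
      W.v (Matrix.vandermonde fun a : Fin r => p a u).det := by
  rw [val_H]
  exact val_det (W := W) (q := algebraMap E Ω) hu (fun c => RZ.le_one_iff.2 c.2)
    (gen_ne _ _) (gen_int hG _) (gen_span hG hW) (p := fun a : Fin r => (p a : F →+* Ω))
    (fun a => (p a).commutes)
    fun a b h => Fin.ext (hp a.2 b.2 (AlgHom.coe_ringHom_injective h))

theorem val_sum_xx {p : ℕ → F →ₐ[E] Ω} {T : Finset ℕ} {i : ℕ} (h : ∀ a ∈ T, p a ≠ p i) :
    (∑ a ∈ T, xx B m0 s (p a) (p i)).val W = (W.v (∏ a ∈ T, (p i u - p a u)))⁻¹ := by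
  rw [val_sum, map_prod, ← prod_inv_distrib]
  exact prod_congr rfl fun a ha => by rw [val_xx hG hW hu (h a ha), Valuation.map_sub_swap]

theorem val_Nm {p : ℕ → F →ₐ[E] Ω} {r : ℕ} (hp : Set.InjOn p (Set.Iio (r + 1))) :
    (Nm (cj s p) r + ∑ a ∈ range r, xx B m0 s (p a) (p r)).val W =
      (m0 • pb (tw E Ω) (oP B)).val W := by
  have h1 : ∀ a ∈ range r, p a ≠ p r := fun a ha h =>
    (mem_range.1 ha).ne (hp ((mem_range.1 ha).trans r.lt_succ_self) r.lt_succ_self h)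
  have hp' := hp.mono (Set.Iio_subset_Iio r.le_succ)
  have h2 := val_ne (Dm (cj s p) r) W
  have h3 := val_ne (∑ a ∈ range r, xx B m0 s (p a) (p r)) W
  rw [val_sum_xx hG hW hu h1] at h3
  rw [val_Dm hG hW hu hp'] at h2
  rw [val_add, Nm, val_sub, val_sum_xx hG hW hu h1, val_Dm hG hW hu hp, val_Dm hG hW hu hp',
    vdm_succ, map_mul, prod_range]
  rw [prod_range] at h3
  have h4 := inv_ne_zero h3
  rw [inv_inv] at h4
  have h5 := left_ne_zero_of_mul h2
  have h6 := right_ne_zero_of_mul h2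
  simp only [Fin.val_castSucc, Fin.val_last]
  rw [pow_succ]
  field_simp

end Loc

variable [Algebra.EssFiniteType ℂ E] [FiniteDimensional E F]

omit [Algebra ℂ F] [IsScalarTower ℂ E F] in
theorem exists_mon_hor (bE : B2 E) (hW : Hor B (tw E Ω) W) : ∃ u : F, Mon (rsV (tw E Ω) W).1 u :=
  exists_mon' (N8.trdeg_of_basis bE) (dm_two bE ▸ hW.dvs)

/-- the Hurwitz formula over a prime of the base -/
theorem val_hurwitz {bE : B2 E} {bF : B2 F} {p : ℕ → F →ₐ[E] Ω} (hG : Gen B m0 s)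
    (hC : Cmp (tw E F) bE bF) (hp : Set.InjOn p (Set.Iio (finrank E F))) (hW : Hor B (tw E Ω) W)
    {i : ℕ} (hi : i < finrank E F) : ∃ z : Fin 2 → F, (∀ l, p i (z l) ∈ W.1) ∧
      (∀ z' : Fin 2 → F, (∀ l, p i (z' l) ∈ W.1) →
        W.v (p i (jac bF z')) ≤ W.v (p i (jac bF z))) ∧ W.v (p i (jac bF z)) =
      (pb (tw E Ω) (kP B bE) + ∑ a ∈ (range (finrank E F)).erase i, xx B m0 s (p a) (p i)).val W := by
  obtain ⟨u, hu⟩ := exists_mon_hor (F := F) bE hW
  have hO : (rsV ((p i).restrictScalars ℂ) W).1.comap (algebraMap E F) = (rsV (tw E Ω) W).1 :=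
    ValuationSubring.ext _ _ fun x => Iff.of_eq (congrArg (· ∈ W.1) ((p i).commutes x))
  obtain ⟨y, z, h1, h2, h3, h4, h5⟩ := hurwitz (dm_two bE ▸ hW.dvs) hO hu hC
  refine ⟨z, h2, fun z' hz => (v_cm_le_iff _ (alg_ov ((p i).restrictScalars ℂ))).1 (h4 z' hz), ?_⟩
  have h6 : ∀ a ∈ (range (finrank E F)).erase i, p a ≠ p i := fun a ha h =>
    (mem_erase.1 ha).1 (hp (mem_range.1 (mem_erase.1 ha).2) hi h)
  have h7 := val_ne (∑ a ∈ (range (finrank E F)).erase i, xx B m0 s (p a) (p i)) W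
  have h8 := hu.deriv_eq' (q := algebraMap E Ω) (T := range (finrank E F))
    (p := fun a => (p a : F →+* Ω)) (fun a => (p a).commutes)
    (fun a ha b hb h => hp (mem_range.1 ha) (mem_range.1 hb) (AlgHom.coe_ringHom_injective h))
    (card_range _).ge (mem_range.2 hi)
  have h9 : (pb (tw E Ω) (kP B bE)).val W = W.v (algebraMap E Ω (jac bE y)) := by
    refine val_mp (le_antisymm (Sark27.jac_le_kP bE hW h1) ?_)
    obtain ⟨y', h9, h10⟩ := Sark27.exists_jac B (rsV (tw E Ω) W) bE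
    exact h10 ▸ h3 y' fun l => mem_of_loc (h9 l)
  rw [← map_mul] at h5
  have h10 := (v_cm_eq_iff _ (alg_ov ((p i).restrictScalars ℂ))).1 h5
  rw [map_mul, map_mul] at h10
  rw [val_sum_xx hG hW hu h6] at h7
  rw [val_add, val_sum_xx hG hW hu h6, h9, eq_mul_inv_iff_mul_eq₀ fun h0 => h7 (by rw [h0, inv_zero])]
  exact (congrArg (fun t => _ * W.v t) h8).symm.trans
    (h10.trans (congrArg W.v ((p i).commutes _)))

theorem monoStmt : MonoStmt := by
  intro E F Ω _ _ _ _ _ _ _ _ _ _ _ _ _ B P bE bF m0 n s p W hG hC _ hp hW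
  refine ⟨fun r hr => ?_, fun i hi => ?_⟩
  · obtain ⟨u, hu⟩ := exists_mon_hor (F := F) bE hW
    exact val_Nm hG hW hu (hp.mono (Set.Iio_subset_Iio hr))
  · obtain ⟨z, -, h2, h3⟩ := val_hurwitz hG hC hp hW hi
    obtain ⟨z', h4, h5⟩ := Sark27.exists_jac P (rsV ((p i).restrictScalars ℂ) W) bF
    rw [← h3]
    exact (val_mp h5).trans_le (h2 z' fun l => (mem_of_loc (h4 l) :))

/-- the different is the relative canonical divisor -/
theorem mono_eq {P : PModel ℂ F} {bE : B2 E} {bF : B2 F} {p : ℕ → F →ₐ[E] Ω} (hG : Gen B m0 s)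
    (hC : Cmp (tw E F) bE bF) (hP : pb (tw E F) (oP B) ∈ On P)
    (hp : Set.InjOn p (Set.Iio (finrank E F))) (hW : Hor B (tw E Ω) W) {i : ℕ}
    (hi : i < finrank E F) : (pb ((p i).restrictScalars ℂ) (kP P bF)).val W =
      (pb (tw E Ω) (kP B bE) + ∑ a ∈ (range (finrank E F)).erase i, xx B m0 s (p a) (p i)).val W := by
  have : Algebra.EssFiniteType ℂ F := Algebra.EssFiniteType.comp ℂ E F
  obtain ⟨z, h1, h2, h3⟩ := val_hurwitz hG hC hp hW hi
  obtain ⟨z', h4, h5⟩ := Sark27.exists_jac P (rsV ((p i).restrictScalars ℂ) W) bF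
  have h6 : Hor83.rs (tw E F) (rsV ((p i).restrictScalars ℂ) W) = rsV (tw E Ω) W :=
    Subtype.ext (ValuationSubring.ext _ _ fun x =>
      Iff.of_eq (congrArg (· ∈ W.1) ((p i).commutes x)))
  have h7 : Prm (oP P) (rsV ((p i).restrictScalars ℂ) W) := (Hor83.car_oP hP).prm
    (Hor83.prm_pb ((dm_two bF).trans (dm_two bE).symm) (h6 ▸ hW))
  rw [← h3]
  exact le_antisymm ((val_mp h5).trans_le (h2 z' fun l => (mem_of_loc (h4 l) :)))
    (v_le_val_mp.2 (Sark27.jac_le_kP bF h7 h1))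

end Crest.Agent.X262.Mono15
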