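import Crest.Agent.X262.Mono15.Dif0
import Crest.Agent.X277.N8.Dvr

/-!
# Row 262, SURF, MONO (helper15), part 4: Hurwitz formula along a divisor

* `hurwitz` : `|jac z| |f'(u)| = |jac y|` for extremal Jacobians upstairs and downstairs.
-/

set_option autoImplicit false

open Polynomial IsLocalRing Module
open scoped KaehlerDifferential

noncomputable section

namespace Crest.Agent.X262.Mono15

open Crest.Agent.R276.FKDefs_779 Crest.Agent.R276.DivVal_858 Crest.Agent.X277.Per
  Crest.Agent.X277.Jet Crest.Agent.X277.Cns Crest.Agent.X277.N8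

variable {k E F : Type} [Field k] [Field E] [Field F] [Algebra k E] [Algebra k F] [Algebra E F]
  [IsScalarTower k E F] {O : ValuationSubring F} {V : ValuationSubring E} {u : F} {n : ℕ}

theorem charZero_res [CharZero k] (hk : KV k V) : CharZero (ResidueField V) :=
  charZero_of_injective_ringHom
    ((residue V).comp ((algebraMap k E).codRestrict V hk)).injective

theorem der_expand (Z : Fr k E (Fin n)) (δ : Derivation k F F) (c : E) :
    δ (algebraMap E F c) = ∑ i, algebraMap E F (Z.D i c) * δ (algebraMap E F (Z.y i)) := by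
  have h := congrArg (δ.compAlgebraMap E).liftKaehlerDifferential (Z.d_eq c)
  simpa [Algebra.smul_def] using h

omit [Algebra k E] [Algebra E F] [IsScalarTower k E F] in
theorem jc_update (Y : Fr k F (Fin n)) (i₀ : Fin n) (x : F) :
    Y.jc (Function.update Y.y i₀ x) = Y.D i₀ x := by
  have h : (Matrix.of fun i j => Y.D i (Function.update Y.y i₀ x j)) =
      (1 : Matrix (Fin n) (Fin n) F).updateCol i₀ fun i => Y.D i x := by
    ext i j
    rw [Matrix.of_apply, Matrix.updateCol_apply]
    split_ifs with hj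
    · rw [hj, Function.update_self]
    · rw [Function.update_of_ne hj, Y.dual, Matrix.one_apply]
  rw [Fr.jc, h, ← Matrix.cramer_apply, Matrix.cramer_one]
  rfl

theorem resInd_up (hO : O.comap (algebraMap E F) = V) {ι : Type} {x : ι → E}
    (hx : ResInd k V x) : ResInd k O fun i => algebraMap E F (x i) := by
  refine ⟨fun i => (show x i ∈ O.comap (algebraMap E F) from hO ▸ hx.1 i), fun P hP => ?_⟩
  have h := (v_comap_eq hO).2 (hx.2 P hP)
  rwa [← IsScalarTower.toAlgHom_apply k, ← AlgHom.comp_apply, MvPolynomial.comp_aeval] at h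

variable [CharZero k] [Algebra.EssFiniteType k E] [FiniteDimensional E F]

omit [Algebra k F] [IsScalarTower k E F] in
theorem exists_mon' (hn : Algebra.trdeg k E = n) (hV : IsDiv k n V) : ∃ u : F, Mon V u := by
  have := dvr_of_isDiv hn hV
  have := charZero_res hV.alg
  have : CharZero E := charZero_of_injective_algebraMap (algebraMap k E).injective
  exact exists_mon V

/-- **Hurwitz formula** along a divisorial valuation ring -/
theorem hurwitz (hV : IsDiv k n V) (hO : O.comap (algebraMap E F) = V) (hu : Mon V u)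
    {bE : Basis (Fin n) E Ω[E⁄k]} {bF : Basis (Fin n) F Ω[F⁄k]}
    (hb : ∀ y : Fin n → E, jac k bF (fun l => algebraMap E F (y l)) = algebraMap E F (jac k bE y)) :
    ∃ (y : Fin n → E) (z : Fin n → F), (∀ l, y l ∈ V) ∧ (∀ l, z l ∈ O) ∧
      (∀ y' : Fin n → E, (∀ l, y' l ∈ V) → V.valuation (jac k bE y') ≤ V.valuation (jac k bE y)) ∧
      (∀ z' : Fin n → F, (∀ l, z' l ∈ O) → O.valuation (jac k bF z') ≤ O.valuation (jac k bF z)) ∧
      O.valuation (jac k bF z) * O.valuation (aeval u (derivative (minpoly V u))) =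
        O.valuation (algebraMap E F (jac k bE y)) := by
  have : Algebra.EssFiniteType k F := Algebra.EssFiniteType.comp k E F
  have := charZero_res hV.alg
  have hn := trdeg_of_basis bF
  obtain ⟨Z, i₀, hZ⟩ := exists_ad (trdeg_of_basis bE) hV
  have hk : KV k O := fun c => by
    rw [IsScalarTower.algebraMap_apply k E F]
    exact (show _ ∈ O.comap (algebraMap E F) from hO ▸ hV.alg c)
  have hx0 : algebraMap E F (Z.y i₀) ≠ 0 := (_root_.map_ne_zero _).2 hZ.unif.ne
  have hx1 := (v_comap_lt hO).2 hZ.unif.lt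
  have hI := resInd_up hO hZ.ind
  have hD : IsDiv k n O := isDiv_of_resInd (Fintype.card_fin n) hk
    (fun h => by subst h; exact hx1.ne (un_iff_val.1 (un_top hx0))) hI
  have := dvr_of_isDiv hn hD
  obtain ⟨t, ht⟩ := exists_isUnif O
  obtain ⟨g, h1, h2, h3⟩ := hu.exists_unif hO hZ.unif.lt hZ.unif.max ht.lt
  have hg : IsUnif O (aeval u g) := ⟨h1, fun h0 => by
    rw [h0, map_zero, le_zero_iff, Valuation.zero_iff] at h2
    exact ht.ne h2, fun y hy => (ht.max y hy).trans h2⟩
  obtain ⟨Y, hY, hA⟩ := ad_of (y := Function.update (fun l => algebraMap E F (Z.y l)) i₀ (aeval u g))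
    (i₀ := i₀) hn (Fintype.card_fin n) hk (by rwa [Function.update_self])
    (by convert hI using 2 with i; exact Function.update_of_ne i.2 _ _)
  have h4 : Y.y i₀ = aeval u g := by rw [hY, Function.update_self]
  have h5 : Y.D i₀ (aeval u g) = 1 := by rw [← h4, Y.dual, if_pos rfl]
  have h6 : ∀ i, i ≠ i₀ → Y.D i₀ (algebraMap E F (Z.y i)) = 0 := fun i hi => by
    have h7 : Y.y i = algebraMap E F (Z.y i) := by rw [hY, Function.update_of_ne hi]
    rw [← h7, Y.dual, if_neg hi.symm]
  have h7 : (fun l => algebraMap E F (Z.y l)) =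
      Function.update Y.y i₀ (algebraMap E F (Z.y i₀)) := by
    rw [hY, Function.update_idem]
    exact (Function.update_eq_self i₀ _).symm
  refine ⟨Z.y, Y.y, hZ.mem, hA.mem, fun _ => hZ.jac_le bE, fun _ => hA.jac_le bF, ?_⟩
  rw [← hb, h7, jac_eq_mul bF Y (Function.update _ _ _), jc_update, map_mul]
  congr 1
  refine le_antisymm (hu.deriv_le hO (Y.D i₀) (fun a => ?_) h5) ?_
  · rw [der_expand Z, Finset.sum_eq_single i₀ (fun i _ hi => by rw [h6 i hi, mul_zero]) (by simp),
      map_mul]
    exact mul_le_of_le_one_left' (v_coe_le hO ⟨_, hZ.der_mem i₀ _ a.2⟩)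
  · obtain ⟨e, he⟩ := exists_pow hg hA.arch hx0 ((O.valuation_le_one_iff _).1 hx1.le)
    obtain ⟨e, rfl⟩ : ∃ e', e = e' + 1 := Nat.exists_eq_succ_of_ne_zero fun h0 => by
      rw [h0, pow_zero] at he
      exact hx1.ne he
    have h8 := der_mul_eq hg hA.arch (Y.D i₀) (hA.der_mem i₀) hk h5 hx0 hx1
    rw [he, pow_succ] at h8
    rw [mul_right_cancel₀ (vpos hg.ne).ne' h8]
    exact hu.le_deriv hO (x := ⟨Z.y i₀, hZ.mem i₀⟩) h1 hg.ne h3
      (v_natCast hk (Nat.succ_ne_zero e)) he

end Crest.Agent.X262.Mono15
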