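import Crest.Agent.X262.Mono15.Val

/-!
# Row 262, SURF, MONO (helper15), part 3: the different of a tame extension

`O` a valuation ring of `F` over `V`, `Mon V u`, `f` the minimal polynomial of `u`.

* `Mon.exists_sep`  : a polynomial `g` with `g(u)` in the maximal ideal and `g'(u)` a unit;
* `Mon.exists_unif` : the same with `g(u)` a uniformiser;
* `Mon.le_deriv`    : `|x| ≤ |π| |f'(u)|`;
* `Mon.deriv_le`    : `|f'(u)| ≤ |c|` if a derivation has `δ V ⊆ c O` and `δ (g u) = 1`.
-/

set_option autoImplicit false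

open Polynomial IsLocalRing

namespace Crest.Agent.X262.Mono15

variable {E F : Type*} [Field E] [Field F] [Algebra E F] {O : ValuationSubring F}
  {V : ValuationSubring E} {u : F}

theorem v_comap_le (hO : O.comap (algebraMap E F) = V) {x y : E} :
    O.valuation (algebraMap E F x) ≤ O.valuation (algebraMap E F y) ↔
      V.valuation x ≤ V.valuation y := by
  subst hO
  by_cases hy : y = 0
  · simp [hy]
  have h1 : algebraMap E F y ≠ 0 := (_root_.map_ne_zero _).2 hy
  refine (div_le_one₀ (zero_lt_iff.2 ((Valuation.ne_zero_iff _).2 h1))).symm.trans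
    (Iff.trans ?_ (div_le_one₀ (zero_lt_iff.2 ((Valuation.ne_zero_iff _).2 hy))))
  rw [← map_div₀, ← map_div₀, ← map_div₀, ValuationSubring.valuation_le_one_iff,
    ValuationSubring.valuation_le_one_iff]
  rfl

theorem v_comap_lt (hO : O.comap (algebraMap E F) = V) {x : E} :
    O.valuation (algebraMap E F x) < 1 ↔ V.valuation x < 1 := by
  rw [← not_le, ← not_le, ← map_one V.valuation, ← v_comap_le hO, map_one, map_one]

theorem v_comap_eq (hO : O.comap (algebraMap E F) = V) {x : E} :
    O.valuation (algebraMap E F x) = 1 ↔ V.valuation x = 1 := by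
  rw [le_antisymm_iff, le_antisymm_iff, ← map_one V.valuation, ← v_comap_le hO, ← v_comap_le hO,
    map_one, map_one]

theorem v_coe_le (hO : O.comap (algebraMap E F) = V) (c : V) :
    O.valuation (algebraMap E F c) ≤ 1 :=
  (O.valuation_le_one_iff _).2 (show (c : E) ∈ O.comap (algebraMap E F) from hO ▸ c.2)

namespace Mon

variable (hu : Mon V u) (hO : O.comap (algebraMap E F) = V)

include hu hO

theorem v_le (P : V[X]) : O.valuation (aeval u P) ≤ 1 :=
  v_aeval_le (p := RingHom.id F) (v_coe_le hO) (fun _ => rfl)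
    (v_le_of_int (p := RingHom.id F) (v_coe_le hO) (fun _ => rfl) hu.int) P

theorem exists_frac' {a : F} (ha : O.valuation a ≤ 1) :
    ∃ P Q : V[X], aeval u P = a * aeval u Q ∧ O.valuation (aeval u Q) = 1 :=
  hu.exists_frac (p := RingHom.id F) (v_coe_le hO) (fun _ => rfl) ha

theorem v_le_of_coeff {x : E} {P : V[X]} (h : ∀ i, V.valuation (P.coeff i) ≤ V.valuation x) :
    O.valuation (aeval u P) ≤ O.valuation (algebraMap E F x) := by
  rw [aeval_eq_sum_range]
  refine O.valuation.map_sum_le fun i _ => ?_
  have h1 := hu.v_le hO (X ^ i)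
  rw [map_pow, aeval_X] at h1
  rw [Algebra.smul_def, map_mul]
  exact (mul_le_of_le_one_right' h1).trans ((v_comap_le hO).2 (h i))

theorem exists_sep [CharZero (ResidueField V)] : ∃ g : V[X], O.valuation (aeval u g) < 1 ∧
    O.valuation (aeval u (derivative g)) = 1 ∧ ∀ P : V[X], O.valuation (aeval u P) < 1 →
      ∃ h : V[X], ∀ i, V.valuation ((P - g * h).coeff i) < 1 := by
  have hm : ∀ P : V[X], aeval u P ∈ O := fun P => (O.valuation_le_one_iff _).1 (hu.v_le hO P)
  let ρ : V[X] →+* ResidueField O :=
    (residue O).comp ((aeval u : V[X] →ₐ[V] F).toRingHom.codRestrict O hm)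
  have hρ : ∀ P, ρ P = 0 ↔ O.valuation (aeval u P) < 1 := fun P =>
    (residue_eq_zero_iff _).trans (O.valuation_lt_one_iff _)
  have hr : ∀ c : V, residue V c = 0 ↔ V.valuation c < 1 := fun c =>
    (residue_eq_zero_iff _).trans (V.valuation_lt_one_iff _)
  let _ : Algebra (ResidueField V) (ResidueField O) :=
    (Ideal.Quotient.lift (maximalIdeal V) (ρ.comp C) fun c hc => (hρ _).2 (by
      rw [aeval_C]
      exact (v_comap_lt hO).2 ((V.valuation_lt_one_iff _).1 hc))).toAlgebra
  have hev : ∀ P : V[X], aeval (ρ X) (P.map (residue V)) = ρ P := fun P => by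
    rw [aeval_def, eval₂_map]
    have h1 : eval₂RingHom (ρ.comp C) (ρ X) = ρ :=
      ringHom_ext (fun c => eval₂_C _ _) (eval₂_X _ _)
    exact congrArg (fun φ => φ P) h1
  have hint : IsIntegral (ResidueField V) (ρ X) :=
    ⟨_, (minpoly.monic hu.int).map (residue V), (hev _).trans ((hρ _).2 (by simp))⟩
  obtain ⟨g, hg⟩ := Polynomial.map_surjective _ (residue_surjective (R := V))
    (minpoly (ResidueField V) (ρ X))
  refine ⟨g, (hρ _).1 (by rw [← hev, hg, minpoly.aeval]), ?_, fun P hP => ?_⟩
  · refine le_antisymm (hu.v_le hO _) (not_lt.1 fun h => ?_)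
    rw [← hρ, ← hev, ← derivative_map, hg] at h
    exact (minpoly.irreducible hint).separable.aeval_derivative_ne_zero (minpoly.aeval _ _) h
  · rw [← hρ, ← hev] at hP
    obtain ⟨h, hh⟩ := minpoly.dvd _ _ hP
    obtain ⟨h, rfl⟩ := Polynomial.map_surjective _ (residue_surjective (R := V)) h
    refine ⟨h, fun i => (hr _).1 ?_⟩
    rw [← coeff_map, Polynomial.map_sub, Polynomial.map_mul, hg, hh, sub_self, coeff_zero]

theorem exists_unif [CharZero (ResidueField V)] {x : E} (hx : V.valuation x < 1)
    (hx' : ∀ y, V.valuation y < 1 → V.valuation y ≤ V.valuation x) {t : F}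
    (ht : O.valuation t < 1) : ∃ g : V[X], O.valuation (aeval u g) < 1 ∧
      O.valuation t ≤ O.valuation (aeval u g) ∧ O.valuation (aeval u (derivative g)) = 1 := by
  obtain ⟨g, h1, h2, h3⟩ := hu.exists_sep hO
  rcases le_or_gt (O.valuation t) (O.valuation (aeval u g)) with h | h
  · exact ⟨g, h1, h, h2⟩
  obtain ⟨P, Q, h4, h5⟩ := hu.exists_frac' hO ht.le
  have h6 : O.valuation (aeval u P) = O.valuation t := by rw [h4, map_mul, h5, mul_one]
  obtain ⟨c, h7⟩ := h3 P (h6 ▸ ht)
  have h8 := hu.v_le_of_coeff hO fun i => hx' _ (h7 i)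
  have h9 : O.valuation (aeval u (g * c)) < O.valuation (aeval u P) := by
    rw [map_mul, map_mul, h6]
    exact lt_of_le_of_lt (mul_le_of_le_one_right' (hu.v_le hO c)) h
  rw [map_sub, Valuation.map_sub_eq_of_lt_left _ h9, h6] at h8
  have h10 : O.valuation (aeval u (g + C ⟨x, (V.valuation_le_one_iff x).1 hx.le⟩)) =
      O.valuation (algebraMap E F x) := by
    rw [map_add, aeval_C]
    exact Valuation.map_add_eq_of_lt_right _ (h.trans_le h8)
  exact ⟨_, h10 ▸ (v_comap_lt hO).2 hx, h10 ▸ h8, by simpa using h2⟩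

/-- the different of a tame extension, lower bound -/
theorem le_deriv {x : V} {g : V[X]} {e : ℕ} (h1 : O.valuation (aeval u g) < 1)
    (h0 : aeval u g ≠ 0) (h2 : O.valuation (aeval u (derivative g)) = 1)
    (he : O.valuation ((e + 1 : ℕ) : F) = 1)
    (hx : O.valuation (algebraMap E F x) = O.valuation (aeval u g) ^ (e + 1)) :
    O.valuation (aeval u g) ^ e ≤ O.valuation (aeval u (derivative (minpoly V u))) := by
  have hp : 0 < O.valuation (aeval u g) := zero_lt_iff.2 ((Valuation.ne_zero_iff _).2 h0)
  have h3 : O.valuation (algebraMap E F x / aeval u g ^ (e + 1)) = 1 := by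
    rw [map_div₀, map_pow, hx, div_self (pow_pos hp _).ne']
  obtain ⟨P, Q, h4, h5⟩ := hu.exists_frac' hO h3.le
  have h6 : O.valuation (aeval u P) = 1 := by rw [h4, map_mul, h3, h5, mul_one]
  have h7 : aeval u (g ^ (e + 1) * P - C x * Q) = 0 := by
    rw [map_sub, map_mul, map_mul, map_pow, h4, aeval_C, ← mul_assoc,
      mul_div_cancel₀ _ (pow_ne_zero _ h0)]
    exact sub_self _
  obtain ⟨G, hG⟩ := minpoly.isIntegrallyClosed_dvd hu.int h7
  have h8 := congrArg (fun R => aeval u (derivative R)) hG
  simp only [derivative_mul, derivative_C, derivative_pow, map_add, map_sub,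
    map_mul, map_pow, minpoly.aeval, zero_mul, add_zero, zero_add, aeval_C, Nat.add_sub_cancel,
    map_natCast] at h8
  have h9 : O.valuation (((e + 1 : ℕ) : F) * aeval u g ^ e * aeval u (derivative g) * aeval u P) =
      O.valuation (aeval u g) ^ e := by
    rw [map_mul, map_mul, map_mul, he, h2, h6, map_pow, one_mul, mul_one, mul_one]
  have h10 : O.valuation (aeval u g) ^ (e + 1) < O.valuation (aeval u g) ^ e := by
    rw [pow_succ]
    exact mul_lt_of_lt_one_right (pow_pos hp _) h1
  have h11 : O.valuation (aeval u g ^ (e + 1) * aeval u (derivative P) -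
      algebraMap V F x * aeval u (derivative Q)) < O.valuation (aeval u g) ^ e := by
    refine lt_of_le_of_lt (O.valuation.map_sub_le ?_ ?_) h10
    · rw [map_mul, map_pow]
      exact mul_le_of_le_one_right' (hu.v_le hO _)
    · rw [map_mul]
      exact (mul_le_of_le_one_right' (hu.v_le hO _)).trans hx.le
  rw [← h9] at h11
  rw [← h9, ← Valuation.map_add_eq_of_lt_left _ h11, ← add_sub_assoc, h8, map_mul]
  exact mul_le_of_le_one_right' (hu.v_le hO _)

variable {k : Type*} [Field k] [Algebra k F] (δ : Derivation k F F) {c : F}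
  (hδ : ∀ a : V, O.valuation (δ (algebraMap E F a)) ≤ O.valuation c)

include hδ

theorem der_aeval (P : V[X]) :
    O.valuation (δ (aeval u P) - aeval u (derivative P) * δ u) ≤ O.valuation c := by
  induction P using Polynomial.induction_on' with
  | add P Q hP hQ =>
    rw [map_add, map_add, map_add, map_add, add_mul, add_sub_add_comm]
    exact O.valuation.map_add_le hP hQ
  | monomial n a =>
    have h1 := hu.v_le hO (X ^ n)
    rw [map_pow, aeval_X] at h1
    have h2 : δ (aeval u (monomial n a)) - aeval u (derivative (monomial n a)) * δ u =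
        u ^ n * δ (algebraMap E F a) := by
      rw [derivative_monomial, aeval_monomial, aeval_monomial, Derivation.leibniz,
        Derivation.leibniz_pow, map_mul, map_natCast]
      simp only [smul_eq_mul, nsmul_eq_mul]
      change _ + u ^ n * δ (algebraMap E F a) - _ = _
      ring
    rw [h2, map_mul]
    exact (mul_le_of_le_one_left' h1).trans (hδ a)

/-- the different of a tame extension, upper bound -/
theorem deriv_le {g : V[X]} (hg : δ (aeval u g) = 1) :
    O.valuation (aeval u (derivative (minpoly V u))) ≤ O.valuation c := by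
  have h1 := hu.der_aeval hO δ hδ g
  have h2 := hu.der_aeval hO δ hδ (minpoly V u)
  rw [minpoly.aeval, map_zero, zero_sub, Valuation.map_neg] at h2
  rw [hg] at h1
  have h3 : aeval u (derivative (minpoly V u)) =
      aeval u (derivative (minpoly V u)) * (1 - aeval u (derivative g) * δ u) +
        aeval u (derivative g) * (aeval u (derivative (minpoly V u)) * δ u) := by ring
  rw [h3]
  refine O.valuation.map_add_le ?_ ?_
  · rw [map_mul]
    exact (mul_le_of_le_one_left' (hu.v_le hO _)).trans h1
  · rw [map_mul]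
    exact (mul_le_of_le_one_left' (hu.v_le hO _)).trans h2

end Mon

end Crest.Agent.X262.Mono15
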