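import Mathlib

/-!
# Row 262, SURF, MONO (helper15), part 1: monogenic algebras

* `exists_prim` : a finite reduced algebra over a field of characteristic zero is monogenic;
* `exists_mono` : a finite algebra over a local ring with residue characteristic zero which is a
  principal ideal ring is monogenic;
* `exists_mono_int` : the integral closure of a discrete valuation ring of residue characteristic
  zero in a finite extension is monogenic;
* `vdm_dvd` : the Vandermonde determinant divides `det (P_b (u_a))`.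
-/

set_option autoImplicit false

open Polynomial

namespace Crest.Agent.X262.Mono15

/-- a finite reduced algebra has enough homomorphisms to the algebraic closure -/
theorem finrank_le_card (κ C : Type*) [Field κ] [CharZero κ] [CommRing C] [Algebra κ C]
    [Module.Finite κ C] [IsReduced C] :
    Module.finrank κ C ≤ Nat.card (C →ₐ[κ] AlgebraicClosure κ) := by
  classical
  have hA : IsArtinianRing C := IsArtinianRing.of_finite κ C
  have hF : Fintype (MaximalSpectrum C) := Fintype.ofFinite _
  let e : C ≃ₗ[κ] ∀ I : MaximalSpectrum C, C ⧸ I.asIdeal :=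
    (IsArtinianRing.equivPi C).toLinearEquiv.restrictScalars κ
  rw [e.finrank_eq, Module.finrank_pi_fintype]
  have h1 : ∀ I : MaximalSpectrum C, Module.finrank κ (C ⧸ I.asIdeal) =
      Nat.card ((C ⧸ I.asIdeal) →ₐ[κ] AlgebraicClosure κ) := by
    intro I
    have := I.isMaximal
    let _ : Field (C ⧸ I.asIdeal) := Ideal.Quotient.field _
    rw [Nat.card_eq_fintype_card]
    exact (AlgHom.card κ (C ⧸ I.asIdeal) (AlgebraicClosure κ)).symm
  have h2 : ∀ I : MaximalSpectrum C, Finite ((C ⧸ I.asIdeal) →ₐ[κ] AlgebraicClosure κ) :=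
    fun I => inferInstance
  simp_rw [h1]
  rw [← Nat.card_sigma]
  refine Nat.card_le_card_of_injective
    (fun x => x.2.comp (Ideal.Quotient.mkₐ κ x.1.asIdeal)) ?_
  have hk : ∀ (I : MaximalSpectrum C) (φ : (C ⧸ I.asIdeal) →ₐ[κ] AlgebraicClosure κ) (c : C),
      φ.comp (Ideal.Quotient.mkₐ κ I.asIdeal) c = 0 ↔ c ∈ I.asIdeal := by
    intro I φ c
    have := I.isMaximal
    let _ : Field (C ⧸ I.asIdeal) := Ideal.Quotient.field _
    rw [AlgHom.comp_apply, map_eq_zero_iff φ φ.toRingHom.injective]
    exact Ideal.Quotient.eq_zero_iff_mem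
  rintro ⟨I, φ⟩ ⟨J, ψ⟩ h
  have hIJ : I = J := by
    ext c
    rw [← hk I φ c, ← hk J ψ c]
    exact Iff.of_eq (congrArg (fun χ : C →ₐ[κ] AlgebraicClosure κ => χ c = 0) h)
  subst hIJ
  congr 1
  ext x
  obtain ⟨c, rfl⟩ := Ideal.Quotient.mk_surjective x
  exact congrArg (fun χ : C →ₐ[κ] AlgebraicClosure κ => χ c) h

/-- primitive element theorem for finite reduced algebras -/
theorem exists_prim (κ C : Type*) [Field κ] [CharZero κ] [CommRing C] [Algebra κ C]
    [Module.Finite κ C] [IsReduced C] : ∃ u : C, Algebra.adjoin κ {u} = ⊤ := by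
  classical
  let X := C →ₐ[κ] AlgebraicClosure κ
  let p : {x : X × X // x.1 ≠ x.2} → Subspace κ C :=
    fun x => LinearMap.ker (x.1.1.toLinearMap - x.1.2.toLinearMap)
  have hu : ∃ u : C, ∀ x, u ∉ p x := by
    by_contra hc
    push Not at hc
    obtain ⟨x, hx⟩ := Subspace.exists_eq_top_of_iUnion_eq_univ (p := p)
      (Set.eq_univ_of_forall fun u => Set.mem_iUnion.2 (hc u))
    refine x.2 (AlgHom.ext fun c => ?_)
    have : c ∈ p x := hx ▸ Submodule.mem_top
    exact sub_eq_zero.1 this
  obtain ⟨u, hu⟩ := hu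
  refine ⟨u, ?_⟩
  have hint : IsIntegral κ u := Algebra.IsIntegral.isIntegral u
  have hinj : Function.Injective fun φ : X => φ u := fun φ ψ h => by
    by_contra hne
    exact hu ⟨(φ, ψ), hne⟩ (sub_eq_zero.2 h)
  have h1 : Nat.card X ≤ (minpoly κ u).natDegree := by
    have hF : Fintype X := Fintype.ofFinite _
    have h2 : (Finset.univ.image fun φ : X => φ u) ⊆
        ((minpoly κ u).aroots (AlgebraicClosure κ)).toFinset := by
      intro y hy
      obtain ⟨φ, -, rfl⟩ := Finset.mem_image.1 hy
      rw [Multiset.mem_toFinset, mem_aroots]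
      exact ⟨minpoly.ne_zero hint, by rw [aeval_algHom_apply, minpoly.aeval, map_zero]⟩
    have h3 := Finset.card_le_card h2
    rw [Finset.card_image_of_injective _ hinj, Finset.card_univ, ← Nat.card_eq_fintype_card] at h3
    refine h3.trans ((Multiset.toFinset_card_le _).trans ?_)
    exact (card_roots' _).trans natDegree_map_le
  have h4 : Module.finrank κ (Algebra.adjoin κ {u}) = (minpoly κ u).natDegree :=
    (Algebra.adjoin.powerBasis hint).finrank
  have h5 : (Algebra.adjoin κ {u}).toSubmodule = ⊤ := by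
    refine Submodule.eq_top_of_finrank_eq (le_antisymm (Submodule.finrank_le _) ?_)
    exact (finrank_le_card κ C).trans (h1.trans h4.ge)
  exact Algebra.toSubmodule_eq_top.1 h5

/-- a finite principal ideal algebra over a local ring is monogenic -/
theorem exists_mono (R A : Type*) [CommRing R] [IsLocalRing R]
    [CharZero (IsLocalRing.ResidueField R)] [CommRing A] [Algebra R A] [Module.Finite R A]
    [IsPrincipalIdealRing A] : ∃ u : A, Algebra.adjoin R {u} = ⊤ := by
  classical
  set m := IsLocalRing.maximalIdeal R with hm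
  set I : Ideal A := m.map (algebraMap R A) with hI
  obtain ⟨t, ht⟩ := (IsPrincipalIdealRing.principal I.radical).principal
  have hmem : ∀ a : A, a ∈ I.radical ↔ t ∣ a := fun a => by
    rw [ht]
    exact Ideal.mem_span_singleton
  have hle : m ≤ I.radical.comap (algebraMap R A) :=
    fun r hr => Ideal.le_radical (Ideal.mem_map_of_mem _ hr)
  let κ := IsLocalRing.ResidueField R
  let C := A ⧸ I.radical
  let _ : Algebra κ C := Ideal.Quotient.algebraQuotientOfLEComap hle
  have hst : IsScalarTower R κ C := IsScalarTower.of_algebraMap_eq fun _ => rfl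
  have hfin : Module.Finite κ C := Module.Finite.of_restrictScalars_finite R κ C
  have hred : IsReduced C := (Ideal.isRadical_iff_quotient_reduced _).1 (Ideal.radical_isRadical I)
  obtain ⟨ub, hub⟩ := exists_prim κ C
  obtain ⟨u, rfl⟩ := Ideal.Quotient.mk_surjective ub
  set π := Ideal.Quotient.mk I.radical with hπ
  have hev : ∀ (g : R[X]) (a : A), aeval (π a) (g.map (algebraMap R κ)) = π (aeval a g) := by
    intro g a
    rw [aeval_map_algebraMap]
    exact aeval_algHom_apply (Ideal.Quotient.mkₐ R I.radical) a g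
  have hsurj : Function.Surjective (algebraMap R κ) := IsLocalRing.residue_surjective
  have hint : IsIntegral κ (π u) := Algebra.IsIntegral.isIntegral _
  have hsep : (minpoly κ (π u)).Separable := by
    rw [PerfectField.separable_iff_squarefree]
    exact (minpoly.isRadical κ (π u)).squarefree (minpoly.ne_zero hint)
  obtain ⟨f, hf⟩ := Polynomial.map_surjective _ hsurj (minpoly κ (π u))
  obtain ⟨a, b, hab⟩ := hsep
  obtain ⟨β, hβ⟩ := Ideal.Quotient.mk_surjective (aeval (π u) b)
  have h1 : t ∣ aeval u f := by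
    rw [← hmem, ← Ideal.Quotient.eq_zero_iff_mem, ← hev, hf, minpoly.aeval]
  have h2 : t ∣ aeval u (derivative f) * β - 1 := by
    rw [← hmem, ← Ideal.Quotient.eq_zero_iff_mem, map_sub, map_mul, map_one, ← hev,
      ← derivative_map, hf, hβ]
    have := congrArg (aeval (π u)) hab
    rw [map_add, map_mul, map_mul, minpoly.aeval, map_one] at this
    linear_combination this
  obtain ⟨c, hc⟩ := h1
  obtain ⟨e, he⟩ := h2
  obtain ⟨k, hk⟩ := (f.map (algebraMap R A)).binomExpansion u ((1 - c) * β * t)
  rw [derivative_map, eval_map_algebraMap, eval_map_algebraMap, eval_map_algebraMap] at hk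
  set u' := u + (1 - c) * β * t with hu'
  set j := (1 - c) * e + k * ((1 - c) * β) ^ 2 with hj
  have h3 : aeval u' f = t * (1 + j * t) := by
    rw [hk, hc, hj]
    linear_combination (1 - c) * t * he
  have hB : aeval u' f ∈ Algebra.adjoin R {u'} := aeval_mem_adjoin_singleton R u'
  have h4 : ∀ x : A, ∃ y ∈ Algebra.adjoin R {u'}, t ∣ x - y := by
    intro x
    have hx : π x ∈ Algebra.adjoin κ {π u} := hub ▸ Algebra.mem_top
    rw [Algebra.adjoin_singleton_eq_range_aeval] at hx
    obtain ⟨g, hg⟩ := hx
    obtain ⟨g, rfl⟩ := Polynomial.map_surjective _ hsurj g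
    have hπ' : π u' = π u := by
      rw [hu', map_add, add_eq_left, Ideal.Quotient.eq_zero_iff_mem, hmem]
      exact Dvd.intro_left _ rfl
    refine ⟨aeval u' g, aeval_mem_adjoin_singleton R u', ?_⟩
    rw [← hmem, ← Ideal.Quotient.eq_zero_iff_mem, map_sub, ← hev, hπ']
    exact sub_eq_zero.2 hg.symm
  have h5 : ∀ (n : ℕ) (x : A), ∃ y ∈ Algebra.adjoin R {u'}, t ^ n ∣ x - y := by
    intro n
    induction n with
    | zero => exact fun x => ⟨0, zero_mem _, by simp⟩
    | succ n ih =>
      intro x
      obtain ⟨y, hy, z, hz⟩ := ih x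
      obtain ⟨y', hy', z', hz'⟩ := h4 z
      obtain ⟨w, hw⟩ : t ∣ (1 + j * t) ^ n - 1 := by
        have := sub_dvd_pow_sub_pow (1 + j * t) 1 n
        rw [one_pow, add_sub_cancel_left] at this
        exact (Dvd.intro_left j rfl).trans this
      refine ⟨y + aeval u' f ^ n * y', add_mem hy (mul_mem (pow_mem hB n) hy'),
        z' - w * y', ?_⟩
      rw [h3, mul_pow]
      linear_combination hz + t ^ n * hz' - t ^ n * y' * hw
  obtain ⟨n, hn⟩ : ∃ n : ℕ, t ^ n ∈ I := (hmem t).2 dvd_rfl
  refine ⟨u', eq_top_iff.2 (Submodule.le_of_le_smul_of_le_jacobson_bot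
    (Module.finite_def.1 inferInstance) (IsLocalRing.maximalIdeal_le_jacobson ⊥)
    (?_ : ⊤ ≤ (Algebra.adjoin R {u'}).toSubmodule ⊔ m • ⊤))⟩
  intro x _
  obtain ⟨y, hy, z, hz⟩ := h5 n x
  rw [Ideal.smul_top_eq_map]
  refine Submodule.mem_sup.2 ⟨y, hy, x - y, ?_, by ring⟩
  rw [hz]
  exact Ideal.mul_mem_right _ _ hn

/-- the integral closure of a discrete valuation ring in a finite extension is monogenic -/
theorem exists_mono_int (R E F : Type*) [CommRing R] [IsDomain R] [IsDiscreteValuationRing R]
    [CharZero (IsLocalRing.ResidueField R)] [Field E] [Algebra R E] [IsFractionRing R E]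
    [Field F] [Algebra E F] [Algebra R F] [IsScalarTower R E F] [FiniteDimensional E F]
    [Algebra.IsSeparable E F] :
    ∃ u : F, IsIntegral R u ∧ ∀ a : F, IsIntegral R a → ∃ P : R[X], aeval u P = a := by
  let A := integralClosure R F
  have h1 : IsDedekindDomain A := IsIntegralClosure.isDedekindDomain R E F A
  have h2 : Module.Finite R A := IsIntegralClosure.finite R E F A
  have hinj : Function.Injective (algebraMap R F) := by
    rw [IsScalarTower.algebraMap_eq R E F]
    exact (algebraMap E F).injective.comp (IsFractionRing.injective R E)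
  have h4 : FaithfulSMul R A := (faithfulSMul_iff_algebraMap_injective R A).2 fun x y h =>
    hinj (congrArg Subtype.val h)
  have h3 : IsPrincipalIdealRing A := by
    refine IsPrincipalIdealRing.of_finite_maximals
      ((IsDedekindDomain.primesOver_finite (IsLocalRing.maximalIdeal R) A).subset fun P hP => ?_)
    have hP' : P.IsMaximal := hP
    exact ⟨hP'.isPrime, ⟨(IsLocalRing.eq_maximalIdeal
      (Ideal.isMaximal_comap_of_isIntegral_of_isMaximal P)).symm⟩⟩
  obtain ⟨u, hu⟩ := exists_mono R A
  refine ⟨u, u.2, fun a ha => ?_⟩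
  have h5 : (⟨a, ha⟩ : A) ∈ Algebra.adjoin R {u} := hu ▸ Algebra.mem_top
  rw [Algebra.adjoin_singleton_eq_range_aeval] at h5
  obtain ⟨P, hP⟩ := h5
  refine ⟨P, ?_⟩
  exact (aeval_algHom_apply A.val u P).trans (congrArg A.val hP)

/-- the Vandermonde determinant divides the determinant of values of polynomials -/
theorem vdm_dvd {W : Type*} [CommRing W] {r : ℕ} (u : Fin r → W) (P : Fin r → W[X]) :
    (Matrix.vandermonde u).det ∣ (Matrix.of fun a b => (P b).eval (u a)).det := by
  nontriviality W
  set M : W[X] := ∏ a, (X - C (u a)) with hM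
  have hm : M.Monic := monic_prod_of_monic _ _ fun a _ => monic_X_sub_C _
  have hd : M.natDegree = r := by
    rw [hM, natDegree_prod_of_monic _ _ fun a _ => monic_X_sub_C _]
    simp
  have h1 : (Matrix.of fun a b => (P b).eval (u a)) =
      Matrix.vandermonde u * Matrix.of fun (c b : Fin r) => (P b %ₘ M).coeff c := by
    ext a b
    have h2 : M.eval (u a) = 0 := by
      rw [hM, eval_prod]
      exact Finset.prod_eq_zero (Finset.mem_univ a) (by simp)
    have h3 : (P b).eval (u a) = (P b %ₘ M).eval (u a) := by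
      conv_lhs => rw [← modByMonic_add_div (P b) M]
      rw [eval_add, eval_mul, h2, zero_mul, add_zero]
    have h4 : (P b %ₘ M).degree < r := by
      have := degree_modByMonic_lt (P b) hm
      rwa [degree_eq_natDegree hm.ne_zero, hd] at this
    rw [Matrix.of_apply, h3, Matrix.mul_apply, eval_eq_sum_degreeLTEquiv
      ((mem_degreeLT).2 h4)]
    refine Finset.sum_congr rfl fun c _ => ?_
    rw [Matrix.vandermonde_apply, Matrix.of_apply, mul_comm]
    rfl
  rw [h1, Matrix.det_mul]
  exact Dvd.intro _ rfl

end Crest.Agent.X262.Mono15
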