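import Crest.Agent.X262.Mono15.Prim

/-!
# Row 262, SURF, MONO (helper15), part 2: minors are Vandermonde determinants

`V` a valuation ring of `E`, `F / E` finite, `Mon V u` : the integral closure of `V` in `F` is
`V[u]` and every element of `F` is a quotient of two coprime elements of `V[u]`.

* `exists_mon` : existence for discrete valuation rings;
* `Mon.det_le`, `Mon.exists_det` : the largest minor of `(p_a s_b)` is `g ^ r` Vandermonde;
* `Mon.sub_le`, `Mon.exists_sub` : the largest `p_i s_b - p_j s_b` is `g (p_i u - p_j u)`;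
* `Mon.deriv_eq` : `p_i f'(u) = ∏_{j ≠ i} (p_i u - p_j u)`.
-/

set_option autoImplicit false

open Polynomial

namespace Crest.Agent.X262.Mono15

variable {E F Ω : Type*} [Field E] [Field F] [Field Ω] [Algebra E F]

/-- the integral closure of `V` in `F` is `V[u]` -/
structure Mon (V : ValuationSubring E) (u : F) : Prop where
  int : IsIntegral V u
  gen : ∀ a : F, IsIntegral V a → ∃ P : V[X], aeval u P = a
  frac : ∀ a : F, ∃ P Q α β : V[X], aeval u P = a * aeval u Q ∧
    aeval u α * aeval u P + aeval u β * aeval u Q = 1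

theorem exists_mon (V : ValuationSubring E) [IsDiscreteValuationRing V]
    [CharZero (IsLocalRing.ResidueField V)] [FiniteDimensional E F] [Algebra.IsSeparable E F] :
    ∃ u : F, Mon V u := by
  obtain ⟨u, h1, h2⟩ := exists_mono_int V E F
  refine ⟨u, h1, h2, fun a => ?_⟩
  let A := integralClosure V F
  have h3 : IsDedekindDomain A := IsIntegralClosure.isDedekindDomain V E F A
  have h4 : Module.Finite V A := IsIntegralClosure.finite V E F A
  have hinj : Function.Injective (algebraMap V F) := by
    rw [IsScalarTower.algebraMap_eq V E F]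
    exact (algebraMap E F).injective.comp (IsFractionRing.injective V E)
  have h5 : FaithfulSMul V A := (faithfulSMul_iff_algebraMap_injective V A).2 fun x y h =>
    hinj (congrArg Subtype.val h)
  have h6 : IsPrincipalIdealRing A := by
    refine IsPrincipalIdealRing.of_finite_maximals
      ((IsDedekindDomain.primesOver_finite (IsLocalRing.maximalIdeal V) A).subset fun P hP => ?_)
    have hP' : P.IsMaximal := hP
    exact ⟨hP'.isPrime, ⟨(IsLocalRing.eq_maximalIdeal
      (Ideal.isMaximal_comap_of_isIntegral_of_isMaximal P)).symm⟩⟩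
  have h7 : IsFractionRing A F := IsIntegralClosure.isFractionRing_of_finite_extension V E F A
  obtain ⟨x, y, h8, h9⟩ := IsFractionRing.exists_reduced_fraction A a
  obtain ⟨c, d, h10⟩ := h8.isCoprime
  obtain ⟨P, hP⟩ := h2 x x.2
  obtain ⟨Q, hQ⟩ := h2 (y : A) (y : A).2
  obtain ⟨α, hα⟩ := h2 c c.2
  obtain ⟨β, hβ⟩ := h2 d d.2
  refine ⟨P, Q, α, β, ?_, ?_⟩
  · rw [hP, hQ, ← h9]
    exact (IsLocalization.mk'_spec F x y).symm
  · rw [hP, hQ, hα, hβ]
    exact congrArg Subtype.val h10

theorem det_mul_sum {R ι : Type*} [CommRing R] [Fintype ι] {r : ℕ} (N : Matrix (Fin r) ι R)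
    (C : Matrix ι (Fin r) R) :
    (N * C).det = ∑ c : Fin r → ι, (∏ b, C (c b) b) * (Matrix.of fun a b => N a (c b)).det := by
  classical
  simp only [Matrix.det_apply', Matrix.mul_apply, Finset.prod_univ_sum, Finset.mul_sum,
    Fintype.piFinset_univ, Matrix.of_apply]
  rw [Finset.sum_comm]
  refine Finset.sum_congr rfl fun c _ => Finset.sum_congr rfl fun σ _ => ?_
  rw [Finset.prod_mul_distrib]
  ring

variable {Γ : Type*} [LinearOrderedCommGroupWithZero Γ] {w : Valuation Ω Γ}
  {V : ValuationSubring E} {u : F} {q : E →+* Ω}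

theorem v_le_of_int (hw : ∀ c : V, w (q c) ≤ 1) {p : F →+* Ω}
    (hp : ∀ e, p (algebraMap E F e) = q e) {a : F} (ha : IsIntegral V a) : w (p a) ≤ 1 := by
  let ψ : V →+* w.integer := (q.comp V.subtype).codRestrict w.integer hw
  have h1 : IsIntegral w.integer (p a) :=
    ha.map_of_comp_eq ψ p (RingHom.ext fun c => (hp c).symm)
  exact (Valuation.integer.integers w).mem_of_integral h1

theorem map_aeval' {p : F →+* Ω} (hp : ∀ e, p (algebraMap E F e) = q e) (P : V[X]) (a : F) :
    p (aeval a P) = (P.map (q.comp V.subtype)).eval (p a) := by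
  rw [eval_map, aeval_def, hom_eval₂]
  congr 1
  exact RingHom.ext fun c => hp c

theorem v_aeval_le (hw : ∀ c : V, w (q c) ≤ 1) {p : F →+* Ω}
    (hp : ∀ e, p (algebraMap E F e) = q e) {a : F} (ha : w (p a) ≤ 1) (P : V[X]) :
    w (p (aeval a P)) ≤ 1 := by
  rw [map_aeval' hp, eval_eq_sum_range]
  refine w.map_sum_le fun i _ => ?_
  rw [map_mul, map_pow, coeff_map]
  exact mul_le_one' (hw _) (pow_le_one' ha _)

namespace Mon

variable (hu : Mon V u)

include hu

theorem eq_of_eq {p p' : F →+* Ω} (hp : ∀ e, p (algebraMap E F e) = q e)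
    (hp' : ∀ e, p' (algebraMap E F e) = q e) (h : p u = p' u) : p = p' := by
  have h1 : ∀ P : V[X], p (aeval u P) = p' (aeval u P) := fun P => by
    rw [map_aeval' hp, map_aeval' hp', h]
  ext a
  obtain ⟨P, Q, α, β, h2, h3⟩ := hu.frac a
  have h4 : aeval u Q ≠ 0 := fun h0 => by
    rw [h0, mul_zero] at h2
    rw [h0, h2, mul_zero, mul_zero, add_zero] at h3
    exact zero_ne_one h3
  have h5 := h1 P
  rw [h2, map_mul, map_mul, h1 Q] at h5
  exact mul_right_cancel₀ ((map_ne_zero p').2 h4) h5

/-- the valuation rings over `V` are localisations of `V[u]` -/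
theorem exists_frac (hw : ∀ c : V, w (q c) ≤ 1) {p : F →+* Ω}
    (hp : ∀ e, p (algebraMap E F e) = q e) {a : F} (ha : w (p a) ≤ 1) :
    ∃ P Q : V[X], aeval u P = a * aeval u Q ∧ w (p (aeval u Q)) = 1 := by
  obtain ⟨P, Q, α, β, h2, h3⟩ := hu.frac a
  have h1 := v_aeval_le hw hp (v_le_of_int hw hp hu.int)
  refine ⟨P, Q, h2, le_antisymm (h1 Q) (not_lt.1 fun h4 => ?_)⟩
  have h5 : w (p (aeval u α * aeval u P + aeval u β * aeval u Q)) < 1 := by
    rw [h2, ← mul_assoc, ← add_mul, map_mul, map_mul]
    refine lt_of_le_of_lt (mul_le_of_le_one_left' ?_) h4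
    rw [map_add, map_mul]
    refine w.map_add_le ?_ (h1 β)
    rw [map_mul]
    exact mul_le_one' (h1 α) ha
  rw [h3, map_one, map_one] at h5
  exact lt_irrefl _ h5

variable (hw : ∀ c : V, w (q c) ≤ 1) {r : ℕ} {p : Fin r → F →+* Ω}
  (hp : ∀ a e, p a (algebraMap E F e) = q e) {g : E}

include hw hp

/-- the minors are bounded by the Vandermonde determinant -/
theorem det_le (hg : g ≠ 0) {s : Fin r → F} (hs : ∀ b, IsIntegral V (s b / algebraMap E F g)) :
    w (Matrix.of fun a b => p a (s b)).det ≤
      w (q g) ^ r * w (Matrix.vandermonde fun a => p a u).det := by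
  choose P hP using fun b => hu.gen _ (hs b)
  let ψ : V →+* w.integer := (q.comp V.subtype).codRestrict w.integer hw
  let U : Fin r → w.integer := fun a => ⟨p a u, v_le_of_int hw (hp a) hu.int⟩
  obtain ⟨c, hc⟩ := vdm_dvd U fun b => (P b).map ψ
  have h1 := congrArg w.integer.subtype hc
  rw [map_mul, RingHom.map_det, RingHom.map_det] at h1
  have h2 : (Matrix.of fun a b => p a (s b)) = q g • w.integer.subtype.mapMatrix
      (Matrix.of fun a b => ((P b).map ψ).eval (U a)) := by
    ext a b
    have h3 : s b = algebraMap E F g * aeval u (P b) := by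
      rw [hP, mul_div_cancel₀ _ ((_root_.map_ne_zero _).2 hg)]
    rw [Matrix.of_apply, h3, map_mul, hp, map_aeval' (hp a), Matrix.smul_apply,
      RingHom.mapMatrix_apply, Matrix.map_apply, Matrix.of_apply, smul_eq_mul, eval_map, eval_map,
      hom_eval₂]
    rfl
  have h3 : w.integer.subtype.mapMatrix (Matrix.vandermonde U) =
      Matrix.vandermonde fun a => p a u := by
    ext a b
    simp [U]
  rw [h2, Matrix.det_smul, Fintype.card_fin, h1, h3, map_mul, map_mul, map_pow]
  exact mul_le_mul_right (mul_le_of_le_one_right' c.2) _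

/-- some minor is as large as the Vandermonde determinant -/
theorem exists_det {ι : Type*} [Finite ι] [Nonempty ι] {s : ι → F}
    (hs : ∀ a : F, IsIntegral V a → a * algebraMap E F g ∈ Submodule.span V (Set.range s)) :
    ∃ c : Fin r → ι, w (q g) ^ r * w (Matrix.vandermonde fun a => p a u).det ≤
      w (Matrix.of fun a b => p a (s (c b))).det := by
  classical
  have := Fintype.ofFinite ι
  choose C hC using fun b : Fin r =>
    (Submodule.mem_span_range_iff_exists_fun V).1 (hs _ (hu.int.pow b))
  obtain ⟨c, hc⟩ := Finite.exists_max fun c : Fin r → ι =>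
    w (Matrix.of fun a b => p a (s (c b))).det
  refine ⟨c, ?_⟩
  have h1 : q g • (Matrix.vandermonde fun a => p a u) =
      (Matrix.of fun a i => p a (s i)) * Matrix.of fun i b => q (C b i) := by
    ext a b
    have h2 := congrArg (p a) (hC b)
    rw [map_mul, hp, map_pow, map_sum] at h2
    rw [Matrix.smul_apply, Matrix.vandermonde_apply, smul_eq_mul, mul_comm, ← h2, Matrix.mul_apply]
    refine Finset.sum_congr rfl fun i _ => ?_
    rw [Algebra.smul_def, map_mul, mul_comm, Matrix.of_apply, Matrix.of_apply, ← hp a]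
    rfl
  have h2 := congrArg Matrix.det h1
  rw [Matrix.det_smul, Fintype.card_fin, det_mul_sum] at h2
  rw [← map_pow, ← map_mul, h2]
  refine w.map_sum_le fun c' _ => ?_
  rw [map_mul, map_prod]
  exact (mul_le_of_le_one_left' (Finset.prod_le_one' fun b _ => hw _)).trans (hc c')

omit hp

variable {p₁ p₂ : F →+* Ω} (h₁ : ∀ e, p₁ (algebraMap E F e) = q e)
  (h₂ : ∀ e, p₂ (algebraMap E F e) = q e)

include h₁ h₂

theorem sub_le (hg : g ≠ 0) {s : F} (hs : IsIntegral V (s / algebraMap E F g)) :
    w (p₁ s - p₂ s) ≤ w (q g) * w (p₁ u - p₂ u) := by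
  obtain ⟨P, hP⟩ := hu.gen _ hs
  let ψ : V →+* w.integer := (q.comp V.subtype).codRestrict w.integer hw
  obtain ⟨c, hc⟩ := sub_dvd_eval_sub (⟨p₁ u, v_le_of_int hw h₁ hu.int⟩ : w.integer)
    ⟨p₂ u, v_le_of_int hw h₂ hu.int⟩ (P.map ψ)
  have h1 := congrArg w.integer.subtype hc
  rw [map_sub, eval_map, eval_map, hom_eval₂, hom_eval₂] at h1
  have h3 : s = algebraMap E F g * aeval u P := by
    rw [hP, mul_div_cancel₀ _ ((_root_.map_ne_zero _).2 hg)]
  rw [h3, map_mul, map_mul, h₁, h₂, ← mul_sub, map_mul, map_aeval' h₁, map_aeval' h₂, eval_map,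
    eval_map]
  refine mul_le_mul_right ((congrArg w h1).trans_le ?_) _
  rw [map_mul, map_mul]
  exact mul_le_of_le_one_right' c.2

theorem exists_sub {ι : Type*} [Finite ι] [Nonempty ι] {s : ι → F}
    (hs : ∀ a : F, IsIntegral V a → a * algebraMap E F g ∈ Submodule.span V (Set.range s)) :
    ∃ b : ι, w (q g) * w (p₁ u - p₂ u) ≤ w (p₁ (s b) - p₂ (s b)) := by
  have := Fintype.ofFinite ι
  obtain ⟨C, hC⟩ := (Submodule.mem_span_range_iff_exists_fun V).1 (hs _ hu.int)
  obtain ⟨b, hb⟩ := Finite.exists_max fun b : ι => w (p₁ (s b) - p₂ (s b))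
  refine ⟨b, ?_⟩
  have h1 : ∀ p' : F →+* Ω, (∀ e, p' (algebraMap E F e) = q e) →
      q g * p' u = ∑ i, q (C i) * p' (s i) := fun p' hp' => by
    have h2 := congrArg p' hC
    rw [map_mul, hp', map_sum] at h2
    rw [mul_comm, ← h2]
    refine Finset.sum_congr rfl fun i _ => ?_
    rw [Algebra.smul_def, map_mul, ← hp']
    rfl
  rw [← map_mul, mul_sub, h1 p₁ h₁, h1 p₂ h₂, ← Finset.sum_sub_distrib]
  refine w.map_sum_le fun i _ => ?_
  rw [← mul_sub, map_mul]
  exact (mul_le_of_le_one_left' (hw _)).trans (hb i)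

end Mon

theorem Mon.natDegree_le [FiniteDimensional E F] (hu : Mon V u) :
    (minpoly V u).natDegree ≤ Module.finrank E F := by
  rw [← (minpoly.monic hu.int).natDegree_map (algebraMap V E),
    ← minpoly.isIntegrallyClosed_eq_field_fractions' E hu.int]
  exact minpoly.natDegree_le u

/-- the derivative of the minimal polynomial -/
theorem Mon.deriv_eq [FiniteDimensional E F] (hu : Mon V u) {κ : Type*} [Fintype κ]
    [DecidableEq κ] {p : κ → F →+* Ω} (hp : ∀ i e, p i (algebraMap E F e) = q e)
    (hi : Function.Injective p) (hc : Module.finrank E F ≤ Fintype.card κ) (i : κ) :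
    p i (aeval u (derivative (minpoly V u))) = ∏ j ∈ Finset.univ.erase i, (p i u - p j u) := by
  have h1 : Function.Injective fun j => p j u := fun j l h => hi (hu.eq_of_eq (hp j) (hp l) h)
  have hm := (minpoly.monic hu.int).map (q.comp V.subtype)
  have h2 : (minpoly V u).map (q.comp V.subtype) = Lagrange.nodal Finset.univ fun j => p j u := by
    refine eq_of_monic_of_dvd_of_natDegree_le Lagrange.nodal_monic hm ?_ ?_
    · refine Finset.prod_dvd_of_coprime
        ((pairwise_coprime_X_sub_C h1).set_pairwise _) fun j _ => ?_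
      rw [dvd_iff_isRoot, IsRoot, ← map_aeval' (hp j), minpoly.aeval, map_zero]
    · rw [Lagrange.natDegree_nodal, Finset.card_univ]
      exact natDegree_map_le.trans (hu.natDegree_le.trans hc)
  rw [map_aeval' (hp i), ← derivative_map, h2]
  exact (Lagrange.eval_nodal_derivative_eval_node_eq (v := fun j => p j u)
    (Finset.mem_univ i)).trans Lagrange.eval_nodal

/-- the Vandermonde determinant of one more element -/
theorem vdm_succ {R : Type*} [CommRing R] {r : ℕ} (x : Fin (r + 1) → R) :
    (Matrix.vandermonde x).det = (Matrix.vandermonde fun a : Fin r => x a.castSucc).det *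
      ∏ a : Fin r, (x (Fin.last r) - x a.castSucc) := by
  rw [Matrix.det_vandermonde, Matrix.det_vandermonde, Fin.prod_univ_castSucc,
    ← Finset.prod_mul_distrib]
  have h1 : Finset.Ioi (Fin.last r) = ∅ := by
    ext j
    simp [Fin.le_last]
  rw [h1, Finset.prod_empty, mul_one]
  refine Finset.prod_congr rfl fun a _ => ?_
  have h2 : Finset.Ioi a.castSucc = insert (Fin.last r) ((Finset.Ioi a).map Fin.castSuccEmb) := by
    ext j
    refine Fin.lastCases ?_ (fun j => ?_) j
    · simp [Fin.castSucc_lt_last]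
    · simp [Fin.le_last]
  rw [h2, Finset.prod_insert (by simp), Finset.prod_map, mul_comm]
  rfl

end Crest.Agent.X262.Mono15
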